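import Mathlib

/-!
# The inner/outer cost inequality (P038): definitions

`A x y` is the closed adjacency `y ∈ N[x]` of an oriented graph (reflexive, antisymmetric).
Sets are predicates, relations are `V → V → Prop`.
-/

namespace Vale.Agent.P038.H321

open Classical

variable {V : Type*} [Fintype V]

/-- Weight of a set. -/
noncomputable def wt (w : V → ℝ) (S : V → Prop) : ℝ := ∑ x, if S x then w x else 0

/-- Product weight of a relation. -/
noncomputable def mu (w : V → ℝ) (R : V → V → Prop) : ℝ := ∑ x, w x * wt w (R x)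

/-- `(BA) x a`: `a ∈ N[B_x]`. -/
def comp (A B : V → V → Prop) (x a : V) : Prop := ∃ y, B x y ∧ A y a

/-- `ero B x y`: `N[y] ⊆ B_x`. -/
def ero (A B : V → V → Prop) (x y : V) : Prop := ∀ z, A y z → B x z

/-- Feasible pairs. -/
structure Feas (A B C : V → V → Prop) : Prop where
  left : ∀ x y, A x y → B x y
  right : ∀ x y, A x y → C x y
  anti : ∀ x y, B x y → C y x → x = y

/-- The outer cost. -/
noncomputable def outc (w : V → ℝ) (A B C : V → V → Prop) : ℝ :=
  mu w (comp A B) - mu w B + mu w (comp A C) - mu w C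

/-- The inner cost. -/
noncomputable def innc (w : V → ℝ) (A B C : V → V → Prop) : ℝ :=
  mu w B - mu w (ero A B) + mu w C - mu w (ero A C)

/-- `(B, C)` is feasible and has minimal outer cost. -/
structure OMin (w : V → ℝ) (A B C : V → V → Prop) : Prop where
  feas : Feas A B C
  min : ∀ B' C', Feas A B' C' → outc w A B C ≤ outc w A B' C'

/-- `U x y`: `(x, y)` is in neither `B` nor `Cᵀ`. -/
def Ur (B C : V → V → Prop) (x y : V) : Prop := ¬ B x y ∧ ¬ C y x

/-- `P x a`: `a ∉ N[B_x]`. -/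
def Pr (A B : V → V → Prop) (x a : V) : Prop := ¬ comp A B x a

/-- `Q b y`: `b ∉ N[C_y]`. -/
def Qr (A C : V → V → Prop) (b y : V) : Prop := ¬ comp A C y b

/-- `F x y`: `N[x]` contains some `b` with `Q b y`. -/
def Fr (A C : V → V → Prop) (x y : V) : Prop := ∃ b, A x b ∧ Qr A C b y

/-- `G b a`: some `x ∈ N⁻[b]` has `P x a`. -/
def Gr (A B : V → V → Prop) (b a : V) : Prop := ∃ x, A x b ∧ Pr A B x a

/-- `QA b a`: `a ∈ N[Q_b]`. -/
def QAr (A C : V → V → Prop) (b a : V) : Prop := ∃ y, Qr A C b y ∧ A y a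

/-- `R1 x a`: `P x a` and `a ∈ N[F_x]`. -/
def R1r (A B C : V → V → Prop) (x a : V) : Prop := Pr A B x a ∧ ∃ y, Fr A C x y ∧ A y a

/-- `R2 b y`: `Q b y` and `N[y]` meets `G_b`. -/
def R2r (A B C : V → V → Prop) (b y : V) : Prop := Qr A C b y ∧ ∃ a, Gr A B b a ∧ A y a

/-- `US b a`: `G b a` and `a ∈ N[Q_b]`. -/
def USr (A B C : V → V → Prop) (b a : V) : Prop := Gr A B b a ∧ QAr A C b a

/-- Fair loads: the tails `y` in `F` with `N[y] ∩ Z ≠ ∅` send their mass `w y` to the heads
`N[y] ∩ Z`, only to heads of least load; `l a` is the load of `a` divided by `w a`. -/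
def Fair (w : V → ℝ) (A : V → V → Prop) (F Z : V → Prop) (l : V → ℝ) : Prop :=
  ∃ K : V → V → ℝ, (∀ y a, 0 ≤ K y a) ∧ (∀ y a, K y a ≠ 0 → F y ∧ Z a ∧ A y a) ∧
    (∀ y, F y → (∃ a, Z a ∧ A y a) → ∑ a, K y a = w y) ∧
    (∀ a, w a * l a = ∑ y, K y a) ∧
    (∀ y a a', 0 < K y a → Z a' → A y a' → l a ≤ l a')

theorem wt_mono {w : V → ℝ} (hw : ∀ v, 0 < w v) {S T : V → Prop} (h : ∀ x, S x → T x) :
    wt w S ≤ wt w T := by
  refine Finset.sum_le_sum fun x _ => ?_
  by_cases h1 : S x
  · rw [if_pos h1, if_pos (h x h1)]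
  · rw [if_neg h1]
    split_ifs
    · exact (hw x).le
    · exact le_rfl

theorem wt_nonneg {w : V → ℝ} (hw : ∀ v, 0 < w v) (S : V → Prop) : 0 ≤ wt w S := by
  refine Finset.sum_nonneg fun x _ => ?_
  split_ifs
  · exact (hw x).le
  · exact le_rfl

theorem wt_congr {w : V → ℝ} {S T : V → Prop} (h : ∀ x, S x ↔ T x) : wt w S = wt w T := by
  have : S = T := funext fun x => propext (h x)
  rw [this]

theorem wt_add {w : V → ℝ} {S T R : V → Prop} (h : ∀ x, R x ↔ S x ∨ T x)
    (hd : ∀ x, S x → ¬ T x) : wt w R = wt w S + wt w T := by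
  unfold wt
  rw [← Finset.sum_add_distrib]
  refine Finset.sum_congr rfl fun x _ => ?_
  by_cases h1 : S x
  · rw [if_pos h1, if_neg (hd x h1), if_pos ((h x).2 (Or.inl h1)), add_zero]
  · by_cases h2 : T x
    · rw [if_neg h1, if_pos h2, if_pos ((h x).2 (Or.inr h2)), zero_add]
    · rw [if_neg h1, if_neg h2, if_neg (fun h3 => ((h x).1 h3).elim h1 h2), add_zero]

theorem wt_union_le {w : V → ℝ} (hw : ∀ v, 0 < w v) {S T R : V → Prop}
    (h : ∀ x, R x → S x ∨ T x) : wt w R ≤ wt w S + wt w T := by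
  unfold wt
  rw [← Finset.sum_add_distrib]
  refine Finset.sum_le_sum fun x _ => ?_
  have h0 := (hw x).le
  by_cases h1 : S x <;> by_cases h2 : T x <;> by_cases h3 : R x <;>
    simp only [h1, h2, h3, if_true, if_false] <;> first | linarith | skip
  rcases h x h3 with h4 | h4
  · exact absurd h4 h1
  · exact absurd h4 h2

theorem wt_pos {w : V → ℝ} (hw : ∀ v, 0 < w v) {S : V → Prop} {x : V} (hx : S x) :
    0 < wt w S := by
  refine Finset.sum_pos' (fun y _ => ?_) ⟨x, Finset.mem_univ _, ?_⟩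
  · split_ifs
    · exact (hw y).le
    · exact le_rfl
  · rw [if_pos hx]; exact hw x

theorem wt_single {w : V → ℝ} (x : V) : wt w (fun z => z = x) = w x := by
  unfold wt
  rw [Finset.sum_ite_eq' Finset.univ x w, if_pos (Finset.mem_univ _)]

theorem mu_mono {w : V → ℝ} (hw : ∀ v, 0 < w v) {R S : V → V → Prop}
    (h : ∀ x y, R x y → S x y) : mu w R ≤ mu w S :=
  Finset.sum_le_sum fun x _ => mul_le_mul_of_nonneg_left (wt_mono hw (h x)) (hw x).le

theorem mu_congr {w : V → ℝ} {R S : V → V → Prop} (h : ∀ x y, R x y ↔ S x y) :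
    mu w R = mu w S := by
  have : R = S := funext fun x => funext fun y => propext (h x y)
  rw [this]

theorem mu_add {w : V → ℝ} {R S T : V → V → Prop} (h : ∀ x y, R x y ↔ S x y ∨ T x y)
    (hd : ∀ x y, S x y → ¬ T x y) : mu w R = mu w S + mu w T := by
  unfold mu
  rw [← Finset.sum_add_distrib]
  refine Finset.sum_congr rfl fun x _ => ?_
  rw [wt_add (h x) (hd x), mul_add]

theorem mu_union_le {w : V → ℝ} (hw : ∀ v, 0 < w v) {R S T : V → V → Prop}
    (h : ∀ x y, R x y → S x y ∨ T x y) : mu w R ≤ mu w S + mu w T := by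
  unfold mu
  rw [← Finset.sum_add_distrib]
  refine Finset.sum_le_sum fun x _ => ?_
  rw [← mul_add]
  exact mul_le_mul_of_nonneg_left (wt_union_le hw (h x)) (hw x).le

theorem mu_swap {w : V → ℝ} (R : V → V → Prop) : mu w (fun x y => R y x) = mu w R := by
  unfold mu wt
  simp only [Finset.mul_sum]
  rw [Finset.sum_comm]
  refine Finset.sum_congr rfl fun x _ => Finset.sum_congr rfl fun y _ => ?_
  split_ifs
  · ring
  · ring

theorem mu_eq {w : V → ℝ} (R : V → V → Prop) : mu w R = ∑ a, w a * wt w (fun x => R x a) :=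
  (mu_swap R).symm

end Vale.Agent.P038.H321
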