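import Vale.Agent.P038.H321.Defs

/-!
# Properties of fair loads (P038)
-/

namespace Vale.Agent.P038.H321

open Classical

variable {V : Type*} [Fintype V] {w : V → ℝ} {A : V → V → Prop} {F Z F' Z' : V → Prop}
  {l l' : V → ℝ}

theorem Fair.nonneg (hw : ∀ v, 0 < w v) (h : Fair w A F Z l) (a : V) : 0 ≤ l a := by
  obtain ⟨K, h1, h2, h3, h4, h5⟩ := h
  have h6 : 0 ≤ w a * l a := by
    rw [h4 a]
    exact Finset.sum_nonneg fun y _ => h1 y a
  by_contra h7
  push Not at h7
  have := mul_neg_of_pos_of_neg (hw a) h7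
  linarith

theorem Fair.supp (h : Fair w A F Z l) {a : V} (ha : l a ≠ 0) (hwa : w a ≠ 0) :
    Z a ∧ ∃ y, F y ∧ A y a := by
  obtain ⟨K, h1, h2, h3, h4, h5⟩ := h
  have h6 : ∑ y, K y a ≠ 0 := by
    rw [← h4 a]
    exact mul_ne_zero hwa ha
  obtain ⟨y, -, h7⟩ := Finset.exists_ne_zero_of_sum_ne_zero h6
  obtain ⟨h8, h9, h10⟩ := h2 y a h7
  exact ⟨h9, y, h8, h10⟩

theorem Fair.sum (h : Fair w A F Z l) :
    ∑ a, w a * l a = wt w (fun y => F y ∧ ∃ a, Z a ∧ A y a) := by
  obtain ⟨K, h1, h2, h3, h4, h5⟩ := h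
  simp only [h4]
  rw [Finset.sum_comm]
  unfold wt
  refine Finset.sum_congr rfl fun y _ => ?_
  split_ifs with h6
  · exact h3 y h6.1 h6.2
  · refine Finset.sum_eq_zero fun a _ => ?_
    by_contra h7
    obtain ⟨h8, h9, h10⟩ := h2 y a h7
    exact h6 ⟨h8, a, h9, h10⟩

/-- If all mass of the tails with `K' y a > 0` for some `a ∈ X` stays in `X` under the plan of
`l`, then the total load of `X` under `l` is at least its total load under `l'`. -/
theorem Fair.anti (hw : ∀ v, 0 < w v) (h : Fair w A F Z l) (h' : Fair w A F' Z' l')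
    (hZ : ∀ a, Z a → Z' a) (hF : ∀ y, F' y → F y) {a : V} (ha : Z a) : l' a ≤ l a := by
  by_contra hcon
  push Not at hcon
  obtain ⟨K, h1, h2, h3, h4, h5⟩ := h
  obtain ⟨K', h1', h2', h3', h4', h5'⟩ := h'
  -- the violators with largest `l'`
  obtain ⟨a0, ha0, hmax⟩ := Finset.exists_max_image
    (Finset.univ.filter fun a => Z a ∧ l a < l' a) l'
    ⟨a, Finset.mem_filter.2 ⟨Finset.mem_univ _, ha, hcon⟩⟩
  have ha0' := (Finset.mem_filter.1 ha0).2
  set m := l' a0 with hm
  set X : Finset V := Finset.univ.filter fun a => (Z a ∧ l a < l' a) ∧ l' a = m with hX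
  have hXmem : ∀ {b}, b ∈ X ↔ (Z b ∧ l b < l' b) ∧ l' b = m := by
    intro b; rw [hX, Finset.mem_filter]; exact ⟨fun h => h.2, fun h => ⟨Finset.mem_univ _, h⟩⟩
  -- the tails of `X` under `K'` send all their mass to `X` under `K`
  have hkey : ∀ y, ∑ b ∈ X, K' y b ≤ ∑ b ∈ X, K y b := by
    intro y
    by_cases hy : ∃ b ∈ X, 0 < K' y b
    · obtain ⟨b, hb, hKb⟩ := hy
      obtain ⟨hyF', hbZ', hyb⟩ := h2' y b hKb.ne'
      have hb' := hXmem.1 hb
      have h6 : ∑ b ∈ X, K' y b ≤ w y := by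
        rw [← h3' y hyF' ⟨b, hbZ', hyb⟩]
        exact Finset.sum_le_sum_of_subset_of_nonneg (Finset.subset_univ _)
          fun b _ _ => h1' y b
      have h7 : ∑ b ∈ X, K y b = w y := by
        rw [← h3 y (hF y hyF') ⟨b, hb'.1.1, hyb⟩]
        refine Finset.sum_subset (Finset.subset_univ _) ?_
        intro c _ hc
        by_contra hKc
        have hKc' : 0 < K y c := lt_of_le_of_ne (h1 y c) (Ne.symm hKc)
        obtain ⟨-, hcZ, hyc⟩ := h2 y c hKc
        have h8 : l c ≤ l b := h5 y c b hKc' hb'.1.1 hyb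
        have h9 : l' b ≤ l' c := h5' y b c hKb (hZ c hcZ) hyc
        have h10 : l c < l' c := by linarith [hb'.1.2]
        have h11 := hmax c (Finset.mem_filter.2 ⟨Finset.mem_univ _, hcZ, h10⟩)
        refine hc (hXmem.2 ⟨⟨hcZ, h10⟩, le_antisymm h11 ?_⟩)
        linarith [hb'.2]
      linarith
    · push Not at hy
      refine Finset.sum_le_sum fun b hb => ?_
      have := le_antisymm (hy b hb) (h1' y b)
      rw [this]
      exact h1 y b
  have h6 : ∑ b ∈ X, w b * l' b ≤ ∑ b ∈ X, w b * l b := by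
    simp only [h4, h4']
    rw [Finset.sum_comm, Finset.sum_comm (s := X)]
    exact Finset.sum_le_sum fun y _ => hkey y
  have h7 : ∑ b ∈ X, w b * l b < ∑ b ∈ X, w b * l' b := by
    refine Finset.sum_lt_sum_of_nonempty ⟨a0, hXmem.2 ⟨ha0', rfl⟩⟩ fun b hb => ?_
    exact mul_lt_mul_of_pos_left (hXmem.1 hb).1.2 (hw b)
  linarith

theorem Fair.le_one (hw : ∀ v, 0 < w v) (h : Fair w A F Z l)
    (hH : ∀ X : V → Prop, (∀ a, X a → Z a) →
      wt w (fun y => F y ∧ (∃ a, Z a ∧ A y a) ∧ ∀ a, Z a → A y a → X a) ≤ wt w X) (a : V) :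
    l a ≤ 1 := by
  by_contra hcon
  push Not at hcon
  have hsupp : ∀ {a}, l a ≠ 0 → Z a := fun {a} h1 => (h.supp h1 (hw a).ne').1
  obtain ⟨K, h1, h2, h3, h4, h5⟩ := h
  obtain ⟨a0, -, hmax⟩ := Finset.exists_max_image (Finset.univ : Finset V) l
    ⟨a, Finset.mem_univ _⟩
  set m := l a0 with hm
  have hm1 : 1 < m := lt_of_lt_of_le hcon (hmax a (Finset.mem_univ _))
  set X : V → Prop := fun b => l b = m with hX
  have hXZ : ∀ b, X b → Z b := fun b hb => hsupp (by
    have : l b = m := hb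
    rw [this]; linarith)
  have h6 := hH X hXZ
  -- all tails that send mass to `X` are counted on the left
  have h7 : ∑ b, (if X b then w b * l b else 0) ≤
      wt w (fun y => F y ∧ (∃ a, Z a ∧ A y a) ∧ ∀ a, Z a → A y a → X a) := by
    have h8 : ∑ b, (if X b then w b * l b else 0) = ∑ y, ∑ b, (if X b then K y b else 0) := by
      rw [Finset.sum_comm]
      refine Finset.sum_congr rfl fun b _ => ?_
      split_ifs
      · exact h4 b
      · rw [Finset.sum_const_zero]
    rw [h8]
    unfold wt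
    refine Finset.sum_le_sum fun y _ => ?_
    by_cases hy : ∃ b, X b ∧ 0 < K y b
    · obtain ⟨b, hb, hKb⟩ := hy
      obtain ⟨hyF, hbZ, hyb⟩ := h2 y b hKb.ne'
      rw [if_pos]
      · rw [← h3 y hyF ⟨b, hbZ, hyb⟩]
        refine Finset.sum_le_sum fun c _ => ?_
        split_ifs
        · exact le_rfl
        · exact h1 y c
      · refine ⟨hyF, ⟨b, hbZ, hyb⟩, fun c hcZ hyc => ?_⟩
        have h9 := h5 y b c hKb hcZ hyc
        have h10 := hmax c (Finset.mem_univ _)
        have h11 : l b = m := hb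
        exact le_antisymm h10 (by linarith)
    · push Not at hy
      have h9 : ∑ b, (if X b then K y b else 0) = 0 := by
        refine Finset.sum_eq_zero fun b _ => ?_
        split_ifs with h10
        · exact le_antisymm (hy b h10) (h1 y b)
        · rfl
      rw [h9]
      split_ifs
      · exact (hw y).le
      · exact le_rfl
  have h8 : wt w X < ∑ b, (if X b then w b * l b else 0) := by
    unfold wt
    refine Finset.sum_lt_sum (fun b _ => ?_) ⟨a0, Finset.mem_univ _, ?_⟩
    · split_ifs with h9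
      · have h10 : l b = m := h9
        rw [h10]
        have := mul_lt_mul_of_pos_left hm1 (hw b)
        linarith
      · exact le_rfl
    · have h9 : X a0 := rfl
      rw [if_pos h9, if_pos h9]
      have := mul_lt_mul_of_pos_left hm1 (hw a0)
      linarith
  linarith

end Vale.Agent.P038.H321
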