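import Vale.Agent.P038.H321.Defs

/-!
# A layer-cake lemma (P038)
-/

namespace Vale.Agent.P038.H321

open Classical

variable {V : Type*} [Fintype V] {w : V → ℝ}

theorem layer_aux (hw : ∀ v, 0 < w v) (r : V → V → Prop) (S T : V → Prop)
    (hall : ∀ X : V → Prop, (∀ x, X x → S x) → wt w X ≤ wt w (fun b => T b ∧ ∃ x, X x ∧ r x b))
    (n : ℕ) : ∀ (c m : V → ℝ), (Finset.univ.filter fun x => S x ∧ 0 < c x).card = n →
      (∀ x, S x → 0 ≤ c x) → (∀ b, T b → 0 ≤ m b) →
      (∀ x b, S x → T b → r x b → c x ≤ m b) →
      ∑ x, (if S x then w x * c x else 0) ≤ ∑ b, (if T b then w b * m b else 0) := by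
  induction n using Nat.strong_induction_on with
  | _ n ih =>
    intro c m hn hc hm hcm
    by_cases hne : (Finset.univ.filter fun x => S x ∧ 0 < c x).Nonempty
    · obtain ⟨x0, hx0, hmin⟩ := Finset.exists_min_image _ c hne
      have hx0' := (Finset.mem_filter.1 hx0).2
      set t := c x0 with ht
      have ht0 : 0 < t := hx0'.2
      set X : V → Prop := fun x => S x ∧ 0 < c x with hX
      have hXt : ∀ x, X x → t ≤ c x := fun x hx =>
        hmin x (Finset.mem_filter.2 ⟨Finset.mem_univ _, hx⟩)
      set Y : V → Prop := fun b => T b ∧ ∃ x, X x ∧ r x b with hY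
      have h1 := hall X (fun x hx => hx.1)
      have h2 := ih (Finset.univ.filter fun x => S x ∧ 0 < (if X x then c x - t else c x)).card
        (by
          rw [← hn]
          refine Finset.card_lt_card ((Finset.ssubset_iff_of_subset ?_).2 ⟨x0, hx0, ?_⟩)
          · intro x hx
            obtain ⟨-, h3, h4⟩ := Finset.mem_filter.1 hx
            refine Finset.mem_filter.2 ⟨Finset.mem_univ _, h3, ?_⟩
            split_ifs at h4 with h5
            · exact h5.2
            · exact h4
          · intro hx
            obtain ⟨-, h3, h4⟩ := Finset.mem_filter.1 hx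
            have h5 : X x0 := hx0'
            rw [if_pos h5] at h4
            linarith)
        (fun x => if X x then c x - t else c x) (fun b => if Y b then m b - t else m b) rfl
        (by
          intro x hx
          split_ifs with h3
          · linarith [hXt x h3]
          · exact hc x hx)
        (by
          intro b hb
          split_ifs with h3
          · obtain ⟨-, x, h4, h5⟩ := h3
            linarith [hXt x h4, hcm x b h4.1 hb h5]
          · exact hm b hb)
        (by
          intro x b hx hb hxb
          have h3 := hcm x b hx hb hxb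
          by_cases h4 : X x
          · rw [if_pos h4, if_pos (show Y b from ⟨hb, x, h4, hxb⟩)]
            linarith
          · rw [if_neg h4]
            have h5 : c x = 0 := by
              refine le_antisymm ?_ (hc x hx)
              by_contra h6
              push Not at h6
              exact h4 ⟨hx, h6⟩
            split_ifs with h6
            · obtain ⟨-, z, h7, h8⟩ := h6
              rw [h5]
              linarith [hXt z h7, hcm z b h7.1 hb h8]
            · exact h3)
      have h3 : ∑ x, (if S x then w x * c x else 0) =
          ∑ x, (if S x then w x * (if X x then c x - t else c x) else 0) + t * wt w X := by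
        unfold wt
        rw [Finset.mul_sum, ← Finset.sum_add_distrib]
        refine Finset.sum_congr rfl fun x _ => ?_
        by_cases h4 : X x
        · rw [if_pos h4.1, if_pos h4.1, if_pos h4, if_pos h4]; ring
        · rw [if_neg h4, if_neg h4]; simp
      have h4 : ∑ b, (if T b then w b * m b else 0) =
          ∑ b, (if T b then w b * (if Y b then m b - t else m b) else 0) + t * wt w Y := by
        unfold wt
        rw [Finset.mul_sum, ← Finset.sum_add_distrib]
        refine Finset.sum_congr rfl fun b _ => ?_
        by_cases h4 : Y b
        · rw [if_pos h4.1, if_pos h4.1, if_pos h4, if_pos h4]; ring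
        · rw [if_neg h4, if_neg h4]; simp
      rw [h3, h4]
      have h5 := mul_le_mul_of_nonneg_left h1 ht0.le
      linarith
    · rw [Finset.not_nonempty_iff_eq_empty] at hne
      have h1 : ∑ x, (if S x then w x * c x else 0) ≤ 0 := by
        refine Finset.sum_nonpos fun x _ => ?_
        split_ifs with h2
        · have h3 : c x ≤ 0 := by
            by_contra h4
            push Not at h4
            have : x ∈ (Finset.univ.filter fun x => S x ∧ 0 < c x) :=
              Finset.mem_filter.2 ⟨Finset.mem_univ _, h2, h4⟩
            rw [hne] at this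
            exact absurd this (Finset.notMem_empty x)
          exact mul_nonpos_of_nonneg_of_nonpos (hw x).le h3
        · exact le_rfl
      refine le_trans h1 (Finset.sum_nonneg fun b _ => ?_)
      split_ifs with h2
      · exact mul_nonneg (hw b).le (hm b h2)
      · exact le_rfl

theorem layer (hw : ∀ v, 0 < w v) (r : V → V → Prop) (S T : V → Prop) (c m : V → ℝ)
    (hc : ∀ x, S x → 0 ≤ c x) (hm : ∀ b, T b → 0 ≤ m b)
    (hcm : ∀ x b, S x → T b → r x b → c x ≤ m b)
    (hall : ∀ X : V → Prop, (∀ x, X x → S x) → wt w X ≤ wt w (fun b => T b ∧ ∃ x, X x ∧ r x b)) :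
    ∑ x, (if S x then w x * c x else 0) ≤ ∑ b, (if T b then w b * m b else 0) :=
  layer_aux hw r S T hall _ c m rfl hc hm hcm

end Vale.Agent.P038.H321
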