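import Vale.Agent.P038.H321.Defs

/-!
# Minimality of the outer cost (P038)
-/

namespace Vale.Agent.P038.H321

open Classical

variable {V : Type*} [Fintype V] {w : V → ℝ} {A B C : V → V → Prop}

theorem Feas.symm (h : Feas A B C) : Feas A C B :=
  ⟨h.right, h.left, fun x y h1 h2 => (h.anti y x h2 h1).symm⟩

theorem outc_symm : outc w A B C = outc w A C B := by
  unfold outc; ring

theorem OMin.symm (h : OMin w A B C) : OMin w A C B :=
  ⟨h.feas.symm, fun B' C' h' => by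
    rw [outc_symm, outc_symm (B := B')]
    exact h.min C' B' h'.symm⟩

/-- Adding the set `T ⊆ U_x` to the row `B_x`. -/
theorem OMin.pert (hw : ∀ v, 0 < w v) (h : OMin w A B C) (x : V) (T X : V → Prop)
    (hT : ∀ y, T y → Ur B C x y) (hX : ∀ y a, T y → A y a → comp A B x a ∨ X a) :
    wt w T ≤ wt w X := by
  set B' : V → V → Prop := fun z y => B z y ∨ (z = x ∧ T y) with hB'
  have hf : Feas A B' C := by
    refine ⟨fun z y h1 => Or.inl (h.feas.left z y h1), h.feas.right, ?_⟩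
    rintro z y (h1 | ⟨rfl, h1⟩) h2
    · exact h.feas.anti z y h1 h2
    · exact absurd h2 (hT y h1).2
  have h1 := h.min B' C hf
  have h2 : mu w B' = mu w B + mu w (fun z y => z = x ∧ T y) := by
    refine mu_add (fun z y => Iff.rfl) ?_
    rintro z y h3 ⟨rfl, h4⟩
    exact (hT y h4).1 h3
  have h3 : mu w (comp A B') ≤ mu w (comp A B) + mu w (fun z y => z = x ∧ X y) := by
    refine mu_union_le hw ?_
    rintro z a ⟨y, h4 | ⟨rfl, h4⟩, h5⟩
    · exact Or.inl ⟨y, h4, h5⟩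
    · rcases hX y a h4 h5 with h6 | h6
      · exact Or.inl h6
      · exact Or.inr ⟨rfl, h6⟩
  have h4 : ∀ S : V → Prop, mu w (fun z y => z = x ∧ S y) = w x * wt w S := by
    intro S
    unfold mu
    rw [Finset.sum_eq_single x]
    · congr 1
      exact wt_congr fun y => ⟨fun h => h.2, fun h => ⟨rfl, h⟩⟩
    · intro z _ hz
      have : wt w (fun y => z = x ∧ S y) = 0 := by
        unfold wt
        refine Finset.sum_eq_zero fun y _ => ?_
        rw [if_neg (fun h => hz h.1)]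
      rw [this, mul_zero]
    · intro h; exact absurd (Finset.mem_univ x) h
  rw [h4] at h2 h3
  unfold outc at h1
  have h5 : w x * wt w T ≤ w x * wt w X := by linarith
  exact le_of_mul_le_mul_left h5 (hw x)

theorem OMin.u_pr (hw : ∀ v, 0 < w v) (h : OMin w A B C) {x y : V} (hu : Ur B C x y) :
    ∃ a, A y a ∧ Pr A B x a := by
  by_contra hcon
  push Not at hcon
  have h1 := h.pert hw x (fun z => z = y) (fun _ => False) (fun z hz => by rw [hz]; exact hu)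
    (fun z a hz ha => Or.inl (by
      rw [hz] at ha
      have := hcon a ha
      unfold Pr at this
      exact not_not.1 this))
  rw [wt_single] at h1
  have h2 : wt w (fun _ : V => False) = 0 := by
    unfold wt
    simp
  have h3 := hw y
  linarith

theorem Ur_swap {x y : V} : Ur B C x y ↔ Ur C B y x := ⟨fun h => ⟨h.2, h.1⟩, fun h => ⟨h.2, h.1⟩⟩

theorem OMin.o1 (hw : ∀ v, 0 < w v) (h : OMin w A B C) (x y : V) :
    Ur B C x y ↔ Fr A C x y ∧ ∃ a, A y a ∧ Pr A B x a := by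
  constructor
  · intro hu
    refine ⟨?_, h.u_pr hw hu⟩
    obtain ⟨b, h1, h2⟩ := h.symm.u_pr hw (Ur_swap.1 hu)
    exact ⟨b, h1, h2⟩
  · rintro ⟨⟨b, h1, h2⟩, a, h3, h4⟩
    exact ⟨fun h5 => h4 ⟨y, h5, h3⟩, fun h5 => h2 ⟨x, h5, h1⟩⟩

theorem OMin.o2 (hw : ∀ v, 0 < w v) (h : OMin w A B C) (x : V) (X : V → Prop) :
    wt w (fun y => Fr A C x y ∧ (∃ a, Pr A B x a ∧ A y a) ∧ ∀ a, Pr A B x a → A y a → X a) ≤
      wt w X := by
  refine h.pert hw x _ X ?_ ?_
  · rintro y ⟨h1, ⟨a, h2, h3⟩, -⟩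
    exact (h.o1 hw x y).2 ⟨h1, a, h3, h2⟩
  · rintro y a ⟨-, -, h1⟩ h2
    by_cases h3 : comp A B x a
    · exact Or.inl h3
    · exact Or.inr (h1 a h3 h2)

/-- (O3): for the column `Q^y`. -/
theorem OMin.o3 (hw : ∀ v, 0 < w v) (h : OMin w A B C) (y : V) (X : V → Prop) :
    wt w (fun x => (∃ a, A y a ∧ Pr A B x a) ∧ (∃ b, Qr A C b y ∧ A x b) ∧
      ∀ b, Qr A C b y → A x b → X b) ≤ wt w X :=
  h.symm.o2 hw y X

/-- The Hall condition in the column `a`. -/
theorem OMin.hallC_aux (hw : ∀ v, 0 < w v) (h : OMin w A B C) (a : V) (Y : Finset V)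
    (hY : ∀ y ∈ Y, A y a) : ∀ X : V → Prop,
    (∀ x, X x → Pr A B x a ∧ ∃ y ∈ Y, ∃ b, A x b ∧ Qr A C b y) →
      wt w X ≤ wt w (fun b => (∃ x, X x ∧ A x b) ∧ ∃ y ∈ Y, Qr A C b y) := by
  induction Y using Finset.induction_on with
  | empty =>
    intro X hX
    have h1 : wt w X = 0 := by
      unfold wt
      refine Finset.sum_eq_zero fun x _ => ?_
      rw [if_neg]
      intro h1
      obtain ⟨-, y, h2, -⟩ := hX x h1
      exact absurd h2 (Finset.notMem_empty y)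
    rw [h1]
    exact wt_nonneg hw _
  | insert y Y' hy ih =>
    intro X hX
    have ih' := ih (fun z hz => hY z (Finset.mem_insert_of_mem hz))
    set X1 : V → Prop := fun x => X x ∧ ∃ z ∈ Y', ∃ b, A x b ∧ Qr A C b z with hX1
    set X2 : V → Prop := fun x => X x ∧ ¬ ∃ z ∈ Y', ∃ b, A x b ∧ Qr A C b z with hX2
    have h1 : wt w X = wt w X1 + wt w X2 := by
      refine wt_add (fun x => ?_) ?_
      · constructor
        · intro h1
          by_cases h2 : ∃ z ∈ Y', ∃ b, A x b ∧ Qr A C b z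
          · exact Or.inl ⟨h1, h2⟩
          · exact Or.inr ⟨h1, h2⟩
        · rintro (h1 | h1) <;> exact h1.1
      · rintro x h1 h2
        exact h2.2 h1.2
    have h2 := ih' X1 (fun x hx => ⟨(hX x hx.1).1, hx.2⟩)
    have h3 := h.o3 hw y (fun b => (∃ x, X2 x ∧ A x b) ∧ Qr A C b y)
    have h4 : wt w X2 ≤ wt w (fun b => (∃ x, X2 x ∧ A x b) ∧ Qr A C b y) := by
      refine le_trans (wt_mono hw ?_) h3
      intro x hx
      obtain ⟨h5, z, hz, b, h6, h7⟩ := hX x hx.1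
      have hzy : z = y := by
        rcases Finset.mem_insert.1 hz with h8 | h8
        · exact h8
        · exact absurd ⟨z, h8, b, h6, h7⟩ hx.2
      rw [hzy] at h7
      exact ⟨⟨a, hY y (Finset.mem_insert_self _ _), h5⟩, ⟨b, h7, h6⟩,
        fun b' h8 h9 => ⟨⟨x, hx, h9⟩, h8⟩⟩
    rw [h1]
    refine le_trans (add_le_add h2 h4) ?_
    rw [← wt_add (R := fun b => ((∃ x, X1 x ∧ A x b) ∧ ∃ y ∈ Y', Qr A C b y) ∨
      ((∃ x, X2 x ∧ A x b) ∧ Qr A C b y)) (fun b => Iff.rfl)]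
    · refine wt_mono hw ?_
      rintro b (⟨⟨x, h5, h6⟩, z, h7, h8⟩ | ⟨⟨x, h5, h6⟩, h7⟩)
      · exact ⟨⟨x, h5.1, h6⟩, z, Finset.mem_insert_of_mem h7, h8⟩
      · exact ⟨⟨x, h5.1, h6⟩, y, Finset.mem_insert_self _ _, h7⟩
    · rintro b ⟨-, z, h5, h6⟩ ⟨⟨x, h7, h8⟩, -⟩
      exact h7.2 ⟨z, h5, b, h8, h6⟩

theorem OMin.hallC (hw : ∀ v, 0 < w v) (h : OMin w A B C) (a : V) (X : V → Prop)
    (hX : ∀ x, X x → R1r A B C x a) :
    wt w X ≤ wt w (fun b => USr A B C b a ∧ ∃ x, X x ∧ A x b) := by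
  refine le_trans (h.hallC_aux hw a (Finset.univ.filter fun y => A y a)
    (fun y hy => (Finset.mem_filter.1 hy).2) X ?_) (wt_mono hw ?_)
  · intro x hx
    obtain ⟨h1, y, ⟨b, h2, h3⟩, h4⟩ := hX x hx
    exact ⟨h1, y, Finset.mem_filter.2 ⟨Finset.mem_univ _, h4⟩, b, h2, h3⟩
  · rintro b ⟨⟨x, h1, h2⟩, y, h3, h4⟩
    exact ⟨⟨⟨x, h2, (hX x h1).1⟩, y, h4, (Finset.mem_filter.1 h3).2⟩, x, h1, h2⟩

end Vale.Agent.P038.H321
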